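import Vale.Agent.P054.Final

theorem Vale.Agent.Results.P054.A_eps.result :
    (∀ ε : ℝ, 0 < ε → ∃ n₀ : ℕ, ∀ P : Finset (EuclideanSpace ℝ (Fin 3)), n₀ ≤ P.card →
      (P.card : ℝ) ^ (2 / 3 - ε) ≤ ((P.offDiag.image fun e => dist e.1 e.2).card : ℝ)) ∧
    ∃ c : ℝ, 0 < c ∧ ∃ n₀ : ℕ, ∀ P : Finset (EuclideanSpace ℝ (Fin 3)), n₀ ≤ P.card →
      (∃ (ν : EuclideanSpace ℝ (Fin 3)) (b : ℝ), ν ≠ 0 ∧
        c * (P.card : ℝ) ^ (2 / 3 : ℝ) ≤ ((P.filter fun x => inner ℝ ν x = b).card : ℝ)) ∨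
      c * (P.card : ℝ) ^ (2 / 3 : ℝ) / Real.log P.card ≤
        ((P.offDiag.image fun e => dist e.1 e.2).card : ℝ) :=
  Vale.Agent.P054.final
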