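import Vale.Agent.P054.FinalQ

theorem Vale.Agent.Results.P054.B_sharp.result :
    ∃ c : ℝ, 0 < c ∧ ∀ P : Finset (EuclideanSpace ℝ (Fin 3)), 2 ≤ P.card →
      c * (P.card : ℝ) ^ (2 / 3 : ℝ) ≤ ((P.offDiag.image fun e => dist e.1 e.2).card : ℝ) :=
  Vale.Agent.P054.final_sharp
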